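import Vale.Agent.P133.R2.H28.Cases
import Vale.Agent.P133.R2.H28.Count
import Vale.Agent.P133.R2.H328.Soft
import Vale.Agent.P133.R2.H354.Final
import Vale.Agent.P133.R2.H448.Gen

/-!
P133 (helper126): starting algebras for the class of helper359: weakly purely infinite implies
purely infinite if no quotient contains a nonzero projection, or if the central sequence algebra
has no characters, or if the hereditary subalgebras are locally singly generated, or if locally
countably many ideals suffice.
-/

namespace Vale.Agent.P133.H126

open Vale.Agent.P133.Statement Vale.Agent.P133.H832 Vale.Agent.P133F Vale.Agent.P133.H681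

universe u

/-- `NoProj A`: no quotient of `A` by a closed ideal contains a nonzero projection. -/
theorem wpi_noProj {A : Type u} [NonUnitalCStarAlgebra A] [PartialOrder A] [StarOrderedRing A]
    (h : ∀ J : Submodule ℂ A, IsClosedIdeal J → ∀ e : A, 0 ≤ e → e * e - e ∈ J → e ∈ J) :
    WeaklyPurelyInfinite A → PurelyInfinite A :=
  fun hW => R2.H328.pi_of_no_proj hW h

theorem wpi_noChar {A : Type u} [NonUnitalCStarAlgebra A] [PartialOrder A] [StarOrderedRing A]
    (h : R2.H354.NoCentralChar A) : WeaklyPurelyInfinite A → PurelyInfinite A :=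
  fun hW => (R2.H28.pi_iff_twoOrth hW).2 (R2.H354.twoOrth_of_noCentralChar h)

theorem wpi_gen {A : Type u} [NonUnitalCStarAlgebra A] [PartialOrder A] [StarOrderedRing A]
    (h : R2.H28.LocGen A) : WeaklyPurelyInfinite A → PurelyInfinite A :=
  fun hW => R2.H448.pi_of_generated hW h

theorem wpi_count {A : Type u} [NonUnitalCStarAlgebra A] [PartialOrder A] [StarOrderedRing A]
    (h : R2.H28.LocCount A) : WeaklyPurelyInfinite A → PurelyInfinite A :=
  fun hW => R2.H28.pi_of_countable hW h

/-- all four at once -/
theorem wpi_more {A : Type u} [NonUnitalCStarAlgebra A] [PartialOrder A] [StarOrderedRing A]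
    (h : (∀ J : Submodule ℂ A, IsClosedIdeal J → ∀ e : A, 0 ≤ e → e * e - e ∈ J → e ∈ J) ∨
      R2.H354.NoCentralChar A ∨ R2.H28.LocGen A ∨ R2.H28.LocCount A) :
    WeaklyPurelyInfinite A → PurelyInfinite A := by
  rcases h with h | h | h | h
  · exact wpi_noProj h
  · exact wpi_noChar h
  · exact wpi_gen h
  · exact wpi_count h

end Vale.Agent.P133.H126
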